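import Vale.Agent.P106.Stm
import Vale.Agent.P117.SRep

namespace Vale.Agent.P106

open MeasureTheory FourierTransform Set Vale.Agent.P117
open scoped ENNReal

theorem LRep_add (a b : ℝ) : ex (a + b) = ex a * ex b := by
  rw [ex, ex, ex, ← Complex.exp_add]
  congr 1
  push_cast
  ring

theorem LRep_norm (a : ℝ) : ‖ex a‖ = 1 := rep_n3 a

theorem LRep_enorm (a : ℝ) : ‖ex a‖ₑ = 1 := by
  rw [← ofReal_norm, LRep_norm, ENNReal.ofReal_one]

theorem LRep_cont : Continuous ex := by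
  unfold ex; fun_prop

theorem l_rep (h_prod : S_prod) (h_iprod : S_iprod) (h_ften : S_ften) (hH : L_H) (hK : L_K)
    (h_one : L_one) (h_ph : L_ph) : L_rep := by
  obtain ⟨M, hM⟩ := hH
  obtain ⟨C, hC⟩ := hK M
  refine ⟨ENNReal.ofReal C, ENNReal.ofReal_ne_top, ?_⟩
  intro μ t g G x hμ ht hB r0 r1 r2
  have hμ0 : 0 < μ := by linarith
  have hε : 1 / μ ^ 2 ∈ Icc (0 : ℝ) 1 :=
    ⟨by positivity, by rw [div_le_one (by positivity)]; nlinarith⟩
  obtain ⟨H, H1, H2, H3, H4⟩ := hM _ hε t ht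
  obtain ⟨K, cK, iK, bK, eK⟩ := hC H H1 H2 H3
  let A : Fin 3 → ℝ := ![0, 0, μ ^ 4]
  let R : Fin 3 → ℝ := ![μ ^ 3, μ ^ 3, μ ^ 2]
  let T : ℝ → Fin 3 → ℝ := fun σ =>
    ![-(t * μ ^ 2 / 2 + σ), -(t * μ ^ 2 / 2 + σ), -(t / 2 + σ / μ ^ 2)]
  let S : ℝ → Fin 3 → ℝ := fun σ => ![0, 0, t * μ ^ 2 + 2 * σ]
  let P : ℝ → Fin 3 → ℝ → ℂ := fun σ j y =>
    ex (-(T σ j * ((y - A j) / R j) ^ 2) + S σ j * ((y - A j) / R j) + x j * y) *
      𝓕 (g j : ℝ → ℂ) y
  let Φ : E3 → ℝ → ℂ := fun ξ σ => K σ * ex (t * μ ^ 4) * ∏ j, P σ j (ξ j)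
  have h1 : ∀ ξ : E3, Complex.exp (2 * Real.pi * Complex.I *
      ((inner ℝ x ξ + t * ‖ξ‖ : ℝ) : ℂ)) * 𝓕 (tens g) ξ = ∫ σ : ℝ, Φ ξ σ := by
    intro ξ
    rw [h_ften]
    by_cases hz : ∏ j, 𝓕 (g j : ℝ → ℂ) (ξ j) = 0
    · have : ∀ σ, Φ ξ σ = 0 := by
        intro σ
        simp only [Φ, P]
        rw [Finset.prod_mul_distrib, hz, mul_zero, mul_zero]
      simp only [this, hz, mul_zero, integral_zero]
    · have hn : ∀ j, 𝓕 (g j : ℝ → ℂ) (ξ j) ≠ 0 := fun j h =>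
        hz (Finset.prod_eq_zero (Finset.mem_univ j) h)
      obtain ⟨hv, hn2⟩ := h_ph μ t ξ hμ (not_lt.1 fun h => hn 0 (hB.1 _ h))
        (not_lt.1 fun h => hn 1 (hB.2.1 _ h)) (by_contra fun h => hn 2 (hB.2.2 _ h)) _ rfl
      set v := (ξ 0 / μ ^ 3) ^ 2 + (ξ 1 / μ ^ 3) ^ 2 + 2 * ((ξ 2 - μ ^ 4) / μ ^ 2) +
        ((ξ 2 - μ ^ 4) / μ ^ 2) ^ 2 / μ ^ 2 with hvd
      have e : (inner ℝ x ξ : ℝ) = x 0 * ξ 0 + x 1 * ξ 1 + x 2 * ξ 2 := by
        rw [PiLp.inner_apply, Fin.sum_univ_three]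
        simp [mul_comm]
      have e1 : Complex.exp (2 * Real.pi * Complex.I * ((inner ℝ x ξ + t * ‖ξ‖ : ℝ) : ℂ)) =
          H v * ex (x 0 * ξ 0 + x 1 * ξ 1 + x 2 * ξ 2 + t * μ ^ 4 + t * μ ^ 2 * v / 2) := by
        rw [H4 v hv, ← LRep_add, e, hn2, ex]
        congr 3
        ring
      rw [e1, eK v, mul_assoc, ← integral_mul_const]
      congr 1
      funext σ
      simp only [Φ, P]
      rw [Finset.prod_mul_distrib, mul_assoc (K σ), mul_assoc (K σ), ← mul_assoc (ex (σ * v)),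
        ← mul_assoc (ex (t * μ ^ 4)), Fin.prod_univ_three (fun j => ex _), ← LRep_add, ← LRep_add,
        ← LRep_add, ← LRep_add]
      congr 3
      simp only [A, R, T, S, Matrix.cons_val_zero, Matrix.cons_val_one, Matrix.cons_val_two,
        Matrix.head_cons, Matrix.tail_cons, hvd]
      field_simp
      ring
  have hc : Continuous (Function.uncurry Φ) := by
    have a1 := fun j => rep_cont (g j)
    have a2 := LRep_cont
    have a3 : ∀ j, Continuous fun σ => T σ j := by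
      intro j; fin_cases j <;> simp only [T] <;> fun_prop
    have a4 : ∀ j, Continuous fun σ => S σ j := by
      intro j; fin_cases j <;> simp only [S] <;> fun_prop
    show Continuous fun z : E3 × ℝ => Φ z.1 z.2
    refine ((cK.comp continuous_snd).mul continuous_const).mul
      (continuous_finset_prod _ fun j _ => ?_)
    have a5 := (a3 j).comp (continuous_snd (X := E3))
    have a6 := (a4 j).comp (continuous_snd (X := E3))
    have a7 : Continuous fun z : E3 × ℝ => z.1 j := by fun_prop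
    exact (a2.comp (((a5.mul (((a7.sub continuous_const).div_const _).pow 2)).neg.add
      (a6.mul ((a7.sub continuous_const).div_const _))).add (continuous_const.mul a7))).mul
      ((a1 j).comp a7)
  have hi : Integrable (Function.uncurry Φ) ((volume : Measure E3).prod volume) := by
    refine Integrable.mono' ((h_iprod (fun j y => ‖𝓕 (g j : ℝ → ℂ) y‖)
      fun j => (rep_int (g j)).norm).mul_prod iK.norm) hc.aestronglyMeasurable
      (Filter.Eventually.of_forall fun z => ?_)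
    show ‖Φ z.1 z.2‖ ≤ _
    simp only [Φ, P]
    rw [norm_mul, norm_mul, LRep_norm, mul_one, mul_comm, norm_prod]
    refine le_of_eq ?_
    congr 1
    exact Finset.prod_congr rfl fun j _ => by rw [norm_mul, LRep_norm, one_mul]
  have h2 : ∀ σ, ‖∫ ξ, Φ ξ σ‖ₑ = ‖K σ‖ₑ * FF G μ t σ x := by
    intro σ
    simp only [Φ]
    rw [integral_const_mul, h_prod (P σ), Fin.prod_univ_three]
    have b0 : ∫ y, P σ 0 y = _ := h_one _ _ 0 (μ ^ 3) (-(t * μ ^ 2 / 2 + σ)) 0 (x 0)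
      (by positivity) r0
    have b1 : ∫ y, P σ 1 y = _ := h_one _ _ 0 (μ ^ 3) (-(t * μ ^ 2 / 2 + σ)) 0 (x 1)
      (by positivity) r1
    have b2 : ∫ y, P σ 2 y = _ := h_one _ _ (μ ^ 4) (μ ^ 2) (-(t / 2 + σ / μ ^ 2))
      (t * μ ^ 2 + 2 * σ) (x 2) (by positivity) r2
    rw [b0, b1, b2]
    simp only [enorm_mul, LRep_enorm, mul_one, one_mul, add_zero, FF]
  unfold Uw
  simp_rw [h1]
  rw [integral_integral_swap hi]
  refine (enorm_integral_le_lintegral_enorm _).trans ?_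
  rw [← lintegral_const_mul' _ _ ENNReal.ofReal_ne_top]
  refine lintegral_mono fun σ => ?_
  have h3 : ‖K σ‖ₑ ≤ ENNReal.ofReal C * wt 7 σ := by
    rw [← ofReal_norm, wt, ← ENNReal.ofReal_mul' (by positivity)]
    exact ENNReal.ofReal_le_ofReal (bK σ)
  rw [h2, ← mul_assoc]
  exact mul_le_mul_left h3 _

end Vale.Agent.P106
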